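import Vale.Agent.P254.Unc.Stab2

/-!
Convex bodies inside an ellipsoid `(x - z)ᵀ Q (x - z) ≤ 1` whose volume is not too small.
-/

open MeasureTheory Set Matrix

namespace Vale.Agent.P254

variable {n : ℕ} {K S : Set (Fin n → ℝ)}

/-- `nⁿ det Q det Σ_K < 1` for a convex body `K` in the ellipsoid `(x - z)ᵀ Q (x - z) ≤ 1`. -/
theorem ell_det_lt (hn : 0 < n) (hKb : IsConvexBody K) {Q : Matrix (Fin n) (Fin n) ℝ}
    (hQ : Q.PosDef) (z : Fin n → ℝ) (hKQ : ∀ x ∈ K, (x - z) ⬝ᵥ (Q *ᵥ (x - z)) ≤ 1) :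
    (n : ℝ) ^ n * Q.det * (covMatrix K).det < 1 := by
  have hn0 : (0 : ℝ) < n := by exact_mod_cast hn
  have hK := hKb.2.1
  have hV : 0 < (volume K).toReal := volume_pos_of_body hKb
  have hqc : ∀ c : Fin n → ℝ,
      Continuous fun x : Fin n → ℝ => ∑ i, ∑ j, Q i j * ((x i - c i) * (x j - c j)) := by
    intro c; fun_prop
  have hqe : ∀ c x : Fin n → ℝ, ∑ i, ∑ j, Q i j * ((x i - c i) * (x j - c j))
      = (x - c) ⬝ᵥ (Q *ᵥ (x - c)) := by
    intro c x
    simp only [dotProduct, mulVec, Finset.mul_sum, Pi.sub_apply]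
    refine Finset.sum_congr rfl (fun i _ => Finset.sum_congr rfl (fun j _ => ?_))
    ring
  have hq0 : ∀ c x : Fin n → ℝ, 0 ≤ ∑ i, ∑ j, Q i j * ((x i - c i) * (x j - c j)) := by
    intro c x
    rw [hqe]
    have := hQ.posSemidef.dotProduct_mulVec_nonneg (x - c)
    simpa using this
  have hint : ∀ (c : Fin n → ℝ),
      (volume K).toReal⁻¹ * ∫ x in K, ∑ i, ∑ j, Q i j * ((x i - c i) * (x j - c j))
        = (Q * covMatrix K).trace
          + ∑ i, ∑ j, Q i j * ((centroid K i - c i) * (centroid K j - c j)) := by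
    intro c
    have e1 : ∫ x in K, ∑ i, ∑ j, Q i j * ((x i - c i) * (x j - c j))
        = ∑ i, ∑ j, Q i j * ∫ x in K, (x i - c i) * (x j - c j) := by
      rw [integral_finsetSum _ (fun i _ => intOn hK (by fun_prop))]
      refine Finset.sum_congr rfl (fun i _ => ?_)
      rw [integral_finsetSum _ (fun j _ => intOn hK (by fun_prop))]
      refine Finset.sum_congr rfl (fun j _ => ?_)
      rw [integral_const_mul]
    rw [e1, Finset.mul_sum]
    simp only [trace, diag_apply, mul_apply]
    rw [← Finset.sum_add_distrib]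
    refine Finset.sum_congr rfl (fun i _ => ?_)
    rw [Finset.mul_sum, ← Finset.sum_add_distrib]
    refine Finset.sum_congr rfl (fun j _ => ?_)
    rw [mul_left_comm, cov_shift hK hV.ne', covMatrix_symm K j i]
    ring
  -- strict inequality for the integral
  have hlt : ∫ x in K, ∑ i, ∑ j, Q i j * ((x i - z i) * (x j - z j)) < (volume K).toReal := by
    have h1 : 0 < ∫ x in K, (1 - ∑ i, ∑ j, Q i j * ((x i - z i) * (x j - z j))) := by
      have hcont : Continuous fun x : Fin n → ℝ =>
          1 - ∑ i, ∑ j, Q i j * ((x i - z i) * (x j - z j)) := continuous_const.sub (hqc z)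
      rw [setIntegral_pos_iff_support_of_nonneg_ae]
      · refine lt_of_lt_of_le (isOpen_interior.measure_pos volume hKb.2.2)
          (measure_mono fun x hx => ⟨?_, interior_subset hx⟩)
        rw [Function.mem_support]
        by_cases hxz : x = z
        · subst hxz; simp
        · obtain ⟨r, hr, hball⟩ := Metric.isOpen_iff.mp isOpen_interior x hx
          have hyn : 0 < ‖x - z‖ := norm_pos_iff.mpr (sub_ne_zero.2 hxz)
          set t : ℝ := r / (2 * ‖x - z‖) with ht
          have ht0 : 0 < t := by positivity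
          have hmem : x + t • (x - z) ∈ K := by
            refine interior_subset (hball ?_)
            rw [Metric.mem_ball, dist_eq_norm, add_sub_cancel_left, norm_smul, Real.norm_eq_abs,
              abs_of_pos ht0, ht]
            have : r / (2 * ‖x - z‖) * ‖x - z‖ = r / 2 := by field_simp
            rw [this]
            linarith
          have h2 := hKQ _ hmem
          have e2 : x + t • (x - z) - z = (1 + t) • (x - z) := by
            ext i
            simp only [Pi.sub_apply, Pi.add_apply, Pi.smul_apply, smul_eq_mul]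
            ring
          rw [e2, mulVec_smul, smul_dotProduct, dotProduct_smul, smul_eq_mul, smul_eq_mul,
            ← hqe] at h2
          have h3 := hq0 z x
          intro h4
          have h5 : ∑ i, ∑ j, Q i j * ((x i - z i) * (x j - z j)) = 1 := by linarith
          rw [h5] at h2
          nlinarith
      · refine (ae_restrict_iff' hK.measurableSet).2 (Filter.Eventually.of_forall fun x hx => ?_)
        have := hKQ x hx
        rw [← hqe] at this
        simpa using this
      · exact intOn hK hcont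
    rw [integral_sub (intOn hK continuous_const) (intOn hK (hqc z)), setIntegral_const,
      smul_eq_mul, mul_one, Measure.real] at h1
    linarith
  have h1 := hint z
  have h4 := hq0 z (centroid K)
  have h6 : (Q * covMatrix K).trace < 1 := by
    have h8 := mul_lt_mul_of_pos_left hlt (inv_pos.mpr hV)
    rw [h1, inv_mul_cancel₀ hV.ne'] at h8
    linarith
  have hKP := covMatrix_posSemidef hK
  have h9 := det_mul_det_le hn hQ.posSemidef hKP
  have h10 : 0 ≤ (Q * covMatrix K).trace / n := by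
    have h11 := hint (centroid K)
    have hz : ∑ i : Fin n, ∑ j : Fin n, Q i j * ((centroid K i - centroid K i) *
        (centroid K j - centroid K j)) = 0 := by simp
    rw [hz, add_zero] at h11
    rw [← h11]
    exact div_nonneg (mul_nonneg (inv_nonneg.mpr hV.le) (integral_nonneg (hq0 _))) hn0.le
  have h11 : (Q * covMatrix K).trace / n < 1 / n := div_lt_div_of_pos_right h6 hn0
  have h12 := h9.trans_lt (pow_lt_pow_left₀ h11 h10 hn.ne')
  rw [one_div, inv_pow] at h12
  have hnn : (0 : ℝ) < (n : ℝ) ^ n := by positivity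
  calc (n : ℝ) ^ n * Q.det * (covMatrix K).det = (n : ℝ) ^ n * (Q.det * (covMatrix K).det) := by ring
    _ < (n : ℝ) ^ n * ((n : ℝ) ^ n)⁻¹ := mul_lt_mul_of_pos_left h12 hnn
    _ = 1 := mul_inv_cancel₀ hnn.ne'

/-- the class (E): a convex body in the ellipsoid `(x - z)ᵀ Q (x - z) ≤ 1` with
`(n+1)ⁿ⁺¹ (n+2)ⁿ ≤ |K|² det Q nⁿ (n!)²` has `L_K < L_simplex`. -/
theorem ell_lt (hn : 1 ≤ n) (hK : IsConvexBody K) (hS : IsSimplex S)
    {Q : Matrix (Fin n) (Fin n) ℝ} (hQ : Q.PosDef) (z : Fin n → ℝ)
    (hKQ : ∀ x ∈ K, (x - z) ⬝ᵥ (Q *ᵥ (x - z)) ≤ 1)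
    (hvol : ((n : ℝ) + 1) ^ (n + 1) * ((n : ℝ) + 2) ^ n ≤
      (volume K).toReal ^ 2 * Q.det * ((n : ℝ) ^ n * (n.factorial : ℝ) ^ 2)) :
    isoConst K < isoConst S := by
  have hn0 : (0 : ℝ) < n := by exact_mod_cast hn
  have h1 := ell_det_lt (by omega) hK hQ z hKQ
  have hV := volume_pos_of_body hK
  have hd : 0 < Q.det := hQ.det_pos
  have h2 : (covMatrix K).det / (volume K).toReal ^ 2 < FV.simpC n := by
    unfold FV.simpC
    rw [div_lt_div_iff₀ (by positivity) (by positivity)]
    have hc0 : 0 ≤ (covMatrix K).det := (covMatrix_posSemidef hK.2.1).det_nonneg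
    have e : ((n : ℝ) + 1) * (((n : ℝ) + 1) * ((n : ℝ) + 2)) ^ n
        = ((n : ℝ) + 1) ^ (n + 1) * ((n : ℝ) + 2) ^ n := by
      rw [mul_pow]; ring
    rw [e]
    calc (covMatrix K).det * (((n : ℝ) + 1) ^ (n + 1) * ((n : ℝ) + 2) ^ n)
        ≤ (covMatrix K).det * ((volume K).toReal ^ 2 * Q.det *
          ((n : ℝ) ^ n * (n.factorial : ℝ) ^ 2)) := mul_le_mul_of_nonneg_left hvol hc0
      _ = ((n : ℝ) ^ n * Q.det * (covMatrix K).det) *
          ((n.factorial : ℝ) ^ 2 * (volume K).toReal ^ 2) := by ring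
      _ < 1 * ((n.factorial : ℝ) ^ 2 * (volume K).toReal ^ 2) :=
          mul_lt_mul_of_pos_right h1 (by positivity)
      _ = _ := one_mul _
  rw [isoConst_simplex hS, isoConst, isoConst, FV.det_simplex (by omega)]
  exact Real.rpow_lt_rpow (div_nonneg (covMatrix_posSemidef hK.2.1).det_nonneg (by positivity))
    h2 (by positivity)

/-- The strong isotropic constant conjecture with its equality case for the class (E). -/
theorem ell_conj (hn : 1 ≤ n) (hK : IsConvexBody K) (hS : IsSimplex S)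
    {Q : Matrix (Fin n) (Fin n) ℝ} (hQ : Q.PosDef) (z : Fin n → ℝ)
    (hKQ : ∀ x ∈ K, (x - z) ⬝ᵥ (Q *ᵥ (x - z)) ≤ 1)
    (hvol : ((n : ℝ) + 1) ^ (n + 1) * ((n : ℝ) + 2) ^ n ≤
      (volume K).toReal ^ 2 * Q.det * ((n : ℝ) ^ n * (n.factorial : ℝ) ^ 2)) :
    isoConst K ≤ isoConst S ∧ (isoConst K = isoConst S ↔ IsSimplex K) :=
  conj_of_lt hS (ell_lt hn hK hS hQ z hKQ hvol)

end Vale.Agent.P254
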